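import Vale.Agent.Lib.P318.K23

namespace Vale.Agent.Results.P318.GapSmallExact

open Vale.Agent.Lib.P318

/-- Exact small values of the uniform-demand Goemans-Linial integrality gap:
the relaxation is exact on `2 ≤ n ≤ 4` vertices, and `g(5) = 10/9`, attained. -/
theorem result :
    (∀ n : ℕ, 2 ≤ n → n ≤ 4 → ∀ c : Fin n → Fin n → ℝ, IsCapacity c →
      glValue c = sparsestCut c) ∧
    (∀ n : ℕ, 2 ≤ n → n ≤ 4 → gap n = 1) ∧
    IsGreatest (gapSet 5) (10 / 9) ∧ gap 5 = 10 / 9 := by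
  refine ⟨fun n h2 h4 c hc => glValue_eq_sparsestCut_of_le_four h2 h4 c hc, ?_, gapSet_five,
    gapSet_five.csSup_eq⟩
  intro n h2 h4
  unfold gap
  rw [gapSet_small h2 h4]
  exact csSup_singleton 1

end Vale.Agent.Results.P318.GapSmallExact
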