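import Vale.Agent.Lib.P318.Bdd

namespace Vale.Agent.Results.P318.GapThreshold

open Vale.Agent.Lib.P318

/-- The uniform-demand Goemans-Linial integrality gap `g(n)` (a finite supremum for `n ≥ 2`)
equals `1` exactly when `n ≤ 4`; moreover `g(5) = 10/9` (attained), and
`g(n) ≥ 1 + 4 / ((n-2)^2 (n-1))` for all `n ≥ 5`. -/
theorem result :
    (∀ n : ℕ, 2 ≤ n → BddAbove (gapSet n)) ∧
    (∀ n : ℕ, 2 ≤ n → (gap n = 1 ↔ n ≤ 4)) ∧
    (∀ n : ℕ, 2 ≤ n → n ≤ 4 → ∀ c : Fin n → Fin n → ℝ, IsCapacity c →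
      glValue c = sparsestCut c) ∧
    IsGreatest (gapSet 5) (10 / 9) ∧ gap 5 = 10 / 9 ∧
    (∀ n : ℕ, 5 ≤ n → 1 + 4 / (((n : ℝ) - 2) ^ 2 * ((n : ℝ) - 1)) ≤ gap n) :=
  ⟨fun _ hn => gapSet_bddAbove hn, fun _ hn => gap_eq_one_iff hn,
    fun _ h2 h4 c hc => glValue_eq_sparsestCut_of_le_four h2 h4 c hc, gapSet_five,
    gapSet_five.csSup_eq, fun _ hn => gap_lower hn⟩

end Vale.Agent.Results.P318.GapThreshold
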